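import Vale.Agent.P101.Conv

namespace Vale.Agent.Results.P101.DimDrop

open Vale.Agent.P101

theorem result (A : Type*) [CStarAlgebra A] [Nontrivial A] [TopologicalSpace.SeparableSpace A]
    (ω : Ultrafilter ℕ) (hω : (ω : Filter ℕ) ≤ Filter.cofinite) :
    CentralNoCharacter A ω ↔ ∀ k : ℕ, 2 ≤ k → CentralDimDrop A ω k (k + 1) := by
  constructor
  · intro h k hk
    obtain ⟨k, rfl⟩ : ∃ j, k = j + 1 := ⟨k - 1, by omega⟩
    refine central_drop hω ⟨fun φ => ?_⟩ k
    have := DFunLike.congr_fun (h φ.toNonUnitalStarAlgHom) 1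
    simp at this
  · intro h χ
    obtain ⟨π⟩ := h 2 le_rfl
    have h1 : χ (π 1) = 0 := drop_char (p := 2) (q := 2 + 1) le_rfl (by norm_num)
      (NonUnitalRingHomClass.toNonUnitalRingHom (χ.comp π.toNonUnitalStarAlgHom))
    have h2 : χ 1 = 0 := by simpa using h1
    ext x
    rw [← mul_one x, map_mul, h2, mul_zero]
    rfl

end Vale.Agent.Results.P101.DimDrop
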