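import Vale.Agent.P101.Absorb

namespace Vale.Agent.Results.P101.ZStable

open Vale.Agent.P101

universe u

theorem result (A Z C : Type u) [CStarAlgebra A] [Nontrivial A]
    [TopologicalSpace.SeparableSpace A] [CStarAlgebra Z] [CStarAlgebra C] (hZ : IsJiangSu Z)
    (i : A →⋆ₐ[ℂ] C) (j : Z →⋆ₐ[ℂ] C) (hC : IsCTensor i j)
    (ω : Ultrafilter ℕ) (hω : (ω : Filter ℕ) ≤ Filter.cofinite) (h : CentralNoCharacter A ω) :
    Nonempty (A ≃⋆ₐ[ℂ] C) := by
  refine jiangSu_absorb hZ hω ⟨fun φ => ?_⟩ hC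
  have := DFunLike.congr_fun (h φ.toNonUnitalStarAlgHom) 1
  simp at this

end Vale.Agent.Results.P101.ZStable
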